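import Vale.Agent.P229.Final

/-! P229: a smooth Riemannian metric near the origin of the plane such that no neighbourhood of
the origin admits a smooth isometric immersion into Euclidean three-space. -/

open scoped ContDiff

namespace Vale.Agent.Results.P229.NoLocalImmersion

theorem result : ∃ (Ω : Set (EuclideanSpace ℝ (Fin 2)))
    (g : EuclideanSpace ℝ (Fin 2) → Matrix (Fin 2) (Fin 2) ℝ),
    IsOpen Ω ∧ 0 ∈ Ω ∧ (∀ i j, ContDiffOn ℝ ∞ (fun x => g x i j) Ω) ∧ (∀ x ∈ Ω, (g x).PosDef) ∧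
    ∀ U : Set (EuclideanSpace ℝ (Fin 2)), IsOpen U → 0 ∈ U → U ⊆ Ω →
      ¬∃ F : EuclideanSpace ℝ (Fin 2) → EuclideanSpace ℝ (Fin 3), ContDiffOn ℝ ∞ F U ∧
        ∀ x ∈ U, ∀ i j, inner ℝ (fderiv ℝ F x (EuclideanSpace.single i 1))
          (fderiv ℝ F x (EuclideanSpace.single j 1)) = g x i j :=
  Vale.Agent.P229.final

end Vale.Agent.Results.P229.NoLocalImmersion
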